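import Vale.Agent.P181.Six.K2

set_option maxRecDepth 100000
set_option maxHeartbeats 0

namespace Vale.Agent.P181.K

noncomputable def tE7 : Ls (Ls Nat) := (Ls.cons (Ls.cons 13 (Ls.cons 13 (Ls.cons 13 (Ls.cons 13 (Ls.cons 12 (Ls.cons 12 (Ls.cons 12 (Ls.cons 12 (Ls.cons 11 (Ls.cons 11 Ls.nil)))))))))) (Ls.cons (Ls.cons 13 (Ls.cons 13 (Ls.cons 13 (Ls.cons 12 (Ls.cons 12 (Ls.cons 12 (Ls.cons 12 (Ls.cons 11 (Ls.cons 11 (Ls.cons 11 Ls.nil)))))))))) (Ls.cons (Ls.cons 12 (Ls.cons 12 (Ls.cons 12 (Ls.cons 12 (Ls.cons 12 (Ls.cons 12 (Ls.cons 11 (Ls.cons 11 (Ls.cons 11 (Ls.cons 11 Ls.nil)))))))))) (Ls.cons (Ls.cons 12 (Ls.cons 12 (Ls.cons 12 (Ls.cons 12 (Ls.cons 12 (Ls.cons 11 (Ls.cons 11 (Ls.cons 11 (Ls.cons 11 (Ls.cons 0 Ls.nil)))))))))) (Ls.cons (Ls.cons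 11 (Ls.cons 11 (Ls.cons 11 (Ls.cons 11 (Ls.cons 11 (Ls.cons 11 (Ls.cons 11 (Ls.cons 11 (Ls.cons 0 (Ls.cons 0 Ls.nil)))))))))) (Ls.cons (Ls.cons 9 (Ls.cons 9 (Ls.cons 9 (Ls.cons 9 (Ls.cons 9 (Ls.cons 9 (Ls.cons 9 (Ls.cons 9 (Ls.cons 0 (Ls.cons 0 Ls.nil)))))))))) (Ls.cons (Ls.cons 9 (Ls.cons 9 (Ls.cons 9 (Ls.cons 9 (Ls.cons 9 (Ls.cons 9 (Ls.cons 9 (Ls.cons 9 (Ls.cons 0 (Ls.cons 0 Ls.nil)))))))))) Ls.nil)))))))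

noncomputable def tE8 : Ls (Ls Nat) := (Ls.cons (Ls.cons 15 (Ls.cons 15 (Ls.cons 14 (Ls.cons 14 (Ls.cons 14 (Ls.cons 14 (Ls.cons 13 (Ls.cons 13 (Ls.cons 13 (Ls.cons 13 (Ls.cons 12 Ls.nil))))))))))) (Ls.cons (Ls.cons 14 (Ls.cons 14 (Ls.cons 14 (Ls.cons 14 (Ls.cons 14 (Ls.cons 13 (Ls.cons 13 (Ls.cons 13 (Ls.cons 13 (Ls.cons 12 (Ls.cons 0 Ls.nil))))))))))) (Ls.cons (Ls.cons 14 (Ls.cons 14 (Ls.cons 14 (Ls.cons 14 (Ls.cons 13 (Ls.cons 13 (Ls.cons 13 (Ls.cons 13 (Ls.cons 12 (Ls.cons 11 (Ls.cons 0 Ls.nil))))))))))) (Ls.cons (Ls.cons 13 (Ls.cons 13 (Ls.cons 13 (Ls.cons 13 (Ls.cons 13 (Ls.cons 13 (Ls.cons 13 (Ls.cons 11 (Ls.cons 11 (Ls.cons 11 (Ls.cons 0 Ls.nil))))))))))) (Ls.cons (Ls.cons 11 (Ls.cons 11 (Ls.cons 11 (Ls.cons 11 (Ls.cons 11 (Ls.cons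 11 (Ls.cons 11 (Ls.cons 11 (Ls.cons 11 (Ls.cons 11 (Ls.cons 0 Ls.nil))))))))))) (Ls.cons (Ls.cons 11 (Ls.cons 11 (Ls.cons 11 (Ls.cons 11 (Ls.cons 11 (Ls.cons 11 (Ls.cons 11 (Ls.cons 11 (Ls.cons 11 (Ls.cons 11 (Ls.cons 0 Ls.nil))))))))))) (Ls.cons (Ls.cons 11 (Ls.cons 11 (Ls.cons 11 (Ls.cons 11 (Ls.cons 11 (Ls.cons 11 (Ls.cons 11 (Ls.cons 11 (Ls.cons 11 (Ls.cons 11 (Ls.cons 0 Ls.nil))))))))))) Ls.nil)))))))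

noncomputable def tE9 : Ls (Ls Nat) := (Ls.cons (Ls.cons 16 (Ls.cons 16 (Ls.cons 16 (Ls.cons 16 (Ls.cons 15 (Ls.cons 15 (Ls.cons 15 (Ls.cons 15 (Ls.cons 14 (Ls.cons 13 Ls.nil)))))))))) (Ls.cons (Ls.cons 16 (Ls.cons 16 (Ls.cons 16 (Ls.cons 15 (Ls.cons 0 (Ls.cons 0 (Ls.cons 0 (Ls.cons 0 (Ls.cons 0 (Ls.cons 0 Ls.nil)))))))))) (Ls.cons (Ls.cons 5 (Ls.cons 5 (Ls.cons 5 (Ls.cons 5 (Ls.cons 0 (Ls.cons 0 (Ls.cons 0 (Ls.cons 0 (Ls.cons 0 (Ls.cons 0 Ls.nil)))))))))) Ls.nil)))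

noncomputable def tE10 : Ls (Ls Nat) := (Ls.cons (Ls.cons 18 (Ls.cons 18 (Ls.cons 17 (Ls.cons 17 (Ls.cons 6 Ls.nil))))) (Ls.cons (Ls.cons 7 (Ls.cons 7 (Ls.cons 7 (Ls.cons 5 (Ls.cons 0 Ls.nil))))) Ls.nil))

noncomputable def tE11 : Ls (Ls Nat) := (Ls.cons (Ls.cons 19 (Ls.cons 19 (Ls.cons 8 (Ls.cons 7 (Ls.cons 6 Ls.nil))))) (Ls.cons (Ls.cons 6 (Ls.cons 6 (Ls.cons 6 (Ls.cons 5 (Ls.cons 0 Ls.nil))))) Ls.nil))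

noncomputable def tE12 : Ls (Ls Nat) := (Ls.cons (Ls.cons 21 (Ls.cons 21 (Ls.cons 8 (Ls.cons 7 Ls.nil)))) (Ls.cons (Ls.cons 6 (Ls.cons 6 (Ls.cons 6 (Ls.cons 5 Ls.nil)))) Ls.nil))

noncomputable def tE13 : Ls (Ls Nat) := (Ls.cons (Ls.cons 9 (Ls.cons 9 (Ls.cons 7 (Ls.cons 6 Ls.nil)))) (Ls.cons (Ls.cons 6 (Ls.cons 6 (Ls.cons 6 (Ls.cons 5 Ls.nil)))) Ls.nil))

noncomputable def tE14 : Ls (Ls Nat) := (Ls.cons (Ls.cons 8 (Ls.cons 8 (Ls.cons 7 (Ls.cons 6 Ls.nil)))) (Ls.cons (Ls.cons 6 (Ls.cons 6 (Ls.cons 6 (Ls.cons 0 Ls.nil)))) Ls.nil))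

noncomputable def tE15 : Ls (Ls Nat) := (Ls.cons (Ls.cons 8 (Ls.cons 8 (Ls.cons 7 (Ls.cons 6 Ls.nil)))) (Ls.cons (Ls.cons 6 (Ls.cons 6 (Ls.cons 6 (Ls.cons 0 Ls.nil)))) Ls.nil))

noncomputable def tE16 : Ls (Ls Nat) := (Ls.cons (Ls.cons 8 (Ls.cons 8 (Ls.cons 7 (Ls.cons 6 Ls.nil)))) (Ls.cons (Ls.cons 6 (Ls.cons 6 (Ls.cons 6 (Ls.cons 0 Ls.nil)))) Ls.nil))

noncomputable def tE17 : Ls (Ls Nat) := (Ls.cons (Ls.cons 8 (Ls.cons 8 (Ls.cons 7 (Ls.cons 6 Ls.nil)))) (Ls.cons (Ls.cons 6 (Ls.cons 6 (Ls.cons 6 (Ls.cons 0 Ls.nil)))) Ls.nil))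

noncomputable def tE18 : Ls (Ls Nat) := (Ls.cons (Ls.cons 8 (Ls.cons 8 (Ls.cons 7 (Ls.cons 6 Ls.nil)))) (Ls.cons (Ls.cons 6 (Ls.cons 6 (Ls.cons 6 (Ls.cons 0 Ls.nil)))) Ls.nil))

noncomputable def tE19 : Ls (Ls Nat) := (Ls.cons (Ls.cons 8 (Ls.cons 8 (Ls.cons 6 (Ls.cons 6 Ls.nil)))) (Ls.cons (Ls.cons 6 (Ls.cons 6 (Ls.cons 6 (Ls.cons 0 Ls.nil)))) Ls.nil))

noncomputable def tE20 : Ls (Ls Nat) := (Ls.cons (Ls.cons 8 (Ls.cons 8 (Ls.cons 6 (Ls.cons 6 Ls.nil)))) (Ls.cons (Ls.cons 6 (Ls.cons 6 (Ls.cons 6 (Ls.cons 0 Ls.nil)))) Ls.nil))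

noncomputable def tE21 : Ls (Ls Nat) := (Ls.cons (Ls.cons 8 (Ls.cons 8 (Ls.cons 6 (Ls.cons 6 Ls.nil)))) (Ls.cons (Ls.cons 6 (Ls.cons 6 (Ls.cons 6 (Ls.cons 0 Ls.nil)))) Ls.nil))

noncomputable def tE22 : Ls (Ls Nat) := (Ls.cons (Ls.cons 8 (Ls.cons 8 (Ls.cons 6 (Ls.cons 6 Ls.nil)))) (Ls.cons (Ls.cons 6 (Ls.cons 6 (Ls.cons 6 (Ls.cons 0 Ls.nil)))) Ls.nil))

noncomputable def tE23 : Ls (Ls Nat) := (Ls.cons (Ls.cons 8 (Ls.cons 8 (Ls.cons 6 (Ls.cons 6 Ls.nil)))) (Ls.cons (Ls.cons 6 (Ls.cons 6 (Ls.cons 6 (Ls.cons 0 Ls.nil)))) Ls.nil))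

noncomputable def tE24 : Ls (Ls Nat) := (Ls.cons (Ls.cons 8 (Ls.cons 8 (Ls.cons 6 (Ls.cons 6 Ls.nil)))) (Ls.cons (Ls.cons 6 (Ls.cons 6 (Ls.cons 6 (Ls.cons 0 Ls.nil)))) Ls.nil))

noncomputable def exs : Ls (Ls (Ls Nat)) := (Ls.cons Ls.nil (Ls.cons Ls.nil (Ls.cons Ls.nil (Ls.cons Ls.nil (Ls.cons Ls.nil (Ls.cons Ls.nil (Ls.cons Ls.nil (Ls.cons tE7 (Ls.cons tE8 (Ls.cons tE9 (Ls.cons tE10 (Ls.cons tE11 (Ls.cons tE12 (Ls.cons tE13 (Ls.cons tE14 (Ls.cons tE15 (Ls.cons tE16 (Ls.cons tE17 (Ls.cons tE18 (Ls.cons tE19 (Ls.cons tE20 (Ls.cons tE21 (Ls.cons tE22 (Ls.cons tE23 (Ls.cons tE24 Ls.nil)))))))))))))))))))))))))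

end Vale.Agent.P181.K
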