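import Vale.Agent.P181.Six.F.P
import Vale.Agent.P181.Six.T.P
import Vale.Agent.P181.Six.R.P
import Vale.Agent.P181.Six.U.E7
import Vale.Agent.P181.Six.U.E8
import Vale.Agent.P181.Six.U.E9
import Vale.Agent.P181.Six.U.E10
import Vale.Agent.P181.Six.U.E11
import Vale.Agent.P181.Six.U.E12
import Vale.Agent.P181.Six.U.E13
import Vale.Agent.P181.Six.U.E14
import Vale.Agent.P181.Six.U.E15
import Vale.Agent.P181.Six.U.E16
import Vale.Agent.P181.Six.U.E17
import Vale.Agent.P181.Six.U.E18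
import Vale.Agent.P181.Six.U.E19
import Vale.Agent.P181.Six.U.E20
import Vale.Agent.P181.Six.U.E21
import Vale.Agent.P181.Six.U.E22
import Vale.Agent.P181.Six.U.E23
import Vale.Agent.P181.Six.U.E24
import Vale.Agent.P181.Six.U.V0
import Vale.Agent.P181.Six.U.V1
import Vale.Agent.P181.Six.U.V2
import Vale.Agent.P181.Six.U.V3
import Vale.Agent.P181.Six.U.V4
import Vale.Agent.P181.Six.U.V5
import Vale.Agent.P181.Six.U.V6
import Vale.Agent.P181.Six.U.V7
import Vale.Agent.P181.Six.U.V8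
import Vale.Agent.P181.Six.U.V9
import Vale.Agent.P181.Six.U.V10

set_option maxRecDepth 100000
set_option maxHeartbeats 0

namespace Vale.Agent.P181.K

theorem srcs_ok : SrcsOK srcs :=
  (srcsOK_cons srcF0_ok
  (srcsOK_cons srcF1_ok
  (srcsOK_cons srcF2_ok
  (srcsOK_cons srcF3_ok
  (srcsOK_cons srcF4_ok
  (srcsOK_cons srcF5_ok
  (srcsOK_cons srcF6_ok
  (srcsOK_cons srcF7_ok
  (srcsOK_cons srcF8_ok
  (srcsOK_cons srcF9_ok
  (srcsOK_cons srcF10_ok
  (srcsOK_cons srcF11_ok
  (srcsOK_cons srcF12_ok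
  (srcsOK_cons srcF13_ok
  (srcsOK_cons srcF14_ok
  (srcsOK_cons srcF15_ok
  (srcsOK_cons srcT15_ok
  (srcsOK_cons srcT16_ok
  (srcsOK_cons srcT17_ok
  (srcsOK_cons srcT18_ok
  (srcsOK_cons srcT19_ok
  (srcsOK_cons srcT20_ok
  (srcsOK_cons srcT21_ok
  (srcsOK_cons srcT22_ok
  (srcsOK_cons srcT23_ok
  (srcsOK_cons srcT24_ok
  (srcsOK_cons srcR15_ok
  (srcsOK_cons srcR16_ok
  (srcsOK_cons srcR17_ok
  (srcsOK_cons srcR18_ok
  srcsOK_nil))))))))))))))))))))))))))))))

theorem tE7_ok : ExOK 7 tE7 :=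
  ex_step rfl (by decide +kernel) (by decide +kernel) (by decide +kernel) srcF7_ok ex7

theorem tE8_ok : ExOK 8 tE8 :=
  ex_step rfl (by decide +kernel) (by decide +kernel) (by decide +kernel) srcF8_ok ex8

theorem tE9_ok : ExOK 9 tE9 :=
  ex_step rfl (by decide +kernel) (by decide +kernel) (by decide +kernel) srcF9_ok ex9

theorem tE10_ok : ExOK 10 tE10 :=
  ex_step rfl (by decide +kernel) (by decide +kernel) (by decide +kernel) srcF10_ok ex10

theorem tE11_ok : ExOK 11 tE11 :=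
  ex_step rfl (by decide +kernel) (by decide +kernel) (by decide +kernel) srcF11_ok ex11

theorem tE12_ok : ExOK 12 tE12 :=
  ex_step rfl (by decide +kernel) (by decide +kernel) (by decide +kernel) srcF12_ok ex12

theorem tE13_ok : ExOK 13 tE13 :=
  ex_step rfl (by decide +kernel) (by decide +kernel) (by decide +kernel) srcF13_ok ex13

theorem tE14_ok : ExOK 14 tE14 :=
  ex_step rfl (by decide +kernel) (by decide +kernel) (by decide +kernel) srcF14_ok ex14

theorem tE15_ok : ExOK 15 tE15 :=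
  ex_step rfl (by decide +kernel) (by decide +kernel) (by decide +kernel) srcT15_ok ex15

theorem tE16_ok : ExOK 16 tE16 :=
  ex_step rfl (by decide +kernel) (by decide +kernel) (by decide +kernel) srcT16_ok ex16

theorem tE17_ok : ExOK 17 tE17 :=
  ex_step rfl (by decide +kernel) (by decide +kernel) (by decide +kernel) srcT17_ok ex17

theorem tE18_ok : ExOK 18 tE18 :=
  ex_step rfl (by decide +kernel) (by decide +kernel) (by decide +kernel) srcT18_ok ex18

theorem tE19_ok : ExOK 19 tE19 :=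
  ex_step rfl (by decide +kernel) (by decide +kernel) (by decide +kernel) srcT19_ok ex19

theorem tE20_ok : ExOK 20 tE20 :=
  ex_step rfl (by decide +kernel) (by decide +kernel) (by decide +kernel) srcT20_ok ex20

theorem tE21_ok : ExOK 21 tE21 :=
  ex_step rfl (by decide +kernel) (by decide +kernel) (by decide +kernel) srcT21_ok ex21

theorem tE22_ok : ExOK 22 tE22 :=
  ex_step rfl (by decide +kernel) (by decide +kernel) (by decide +kernel) srcT22_ok ex22

theorem tE23_ok : ExOK 23 tE23 :=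
  ex_step rfl (by decide +kernel) (by decide +kernel) (by decide +kernel) srcT23_ok ex23

theorem tE24_ok : ExOK 24 tE24 :=
  ex_step rfl (by decide +kernel) (by decide +kernel) (by decide +kernel) srcT24_ok ex24

theorem exs_ok : ExsFrom 0 exs :=
  (exsFrom_cons (exOK_nil _)
  (exsFrom_cons (exOK_nil _)
  (exsFrom_cons (exOK_nil _)
  (exsFrom_cons (exOK_nil _)
  (exsFrom_cons (exOK_nil _)
  (exsFrom_cons (exOK_nil _)
  (exsFrom_cons (exOK_nil _)
  (exsFrom_cons tE7_ok
  (exsFrom_cons tE8_ok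
  (exsFrom_cons tE9_ok
  (exsFrom_cons tE10_ok
  (exsFrom_cons tE11_ok
  (exsFrom_cons tE12_ok
  (exsFrom_cons tE13_ok
  (exsFrom_cons tE14_ok
  (exsFrom_cons tE15_ok
  (exsFrom_cons tE16_ok
  (exsFrom_cons tE17_ok
  (exsFrom_cons tE18_ok
  (exsFrom_cons tE19_ok
  (exsFrom_cons tE20_ok
  (exsFrom_cons tE21_ok
  (exsFrom_cons tE22_ok
  (exsFrom_cons tE23_ok
  (exsFrom_cons tE24_ok
  (exsFrom_nil _))))))))))))))))))))))))))

theorem keys2 (y z : ℕ) (hz : z < y) (hy : y < 2) (hk : 4 * 2 + y + z ≤ 153) :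
    KeyOK 2 y z := by
  exact cover_ok rhos_ok srcs_ok exs_ok (by omega) cv2_1 y z (by omega) (by omega) hz hk

theorem keys3 (y z : ℕ) (hz : z < y) (hy : y < 3) (hk : 4 * 3 + y + z ≤ 153) :
    KeyOK 3 y z := by
  exact cover_ok rhos_ok srcs_ok exs_ok (by omega) cv3_1 y z (by omega) (by omega) hz hk

theorem keys4 (y z : ℕ) (hz : z < y) (hy : y < 4) (hk : 4 * 4 + y + z ≤ 153) :
    KeyOK 4 y z := by
  exact cover_ok rhos_ok srcs_ok exs_ok (by omega) cv4_1 y z (by omega) (by omega) hz hk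

theorem keys5 (y z : ℕ) (hz : z < y) (hy : y < 5) (hk : 4 * 5 + y + z ≤ 153) :
    KeyOK 5 y z := by
  exact cover_ok rhos_ok srcs_ok exs_ok (by omega) cv5_1 y z (by omega) (by omega) hz hk

theorem keys6 (y z : ℕ) (hz : z < y) (hy : y < 6) (hk : 4 * 6 + y + z ≤ 153) :
    KeyOK 6 y z := by
  exact cover_ok rhos_ok srcs_ok exs_ok (by omega) cv6_1 y z (by omega) (by omega) hz hk

theorem keys7 (y z : ℕ) (hz : z < y) (hy : y < 7) (hk : 4 * 7 + y + z ≤ 153) :
    KeyOK 7 y z := by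
  exact cover_ok rhos_ok srcs_ok exs_ok (by omega) cv7_1 y z (by omega) (by omega) hz hk

theorem keys8 (y z : ℕ) (hz : z < y) (hy : y < 8) (hk : 4 * 8 + y + z ≤ 153) :
    KeyOK 8 y z := by
  exact cover_ok rhos_ok srcs_ok exs_ok (by omega) cv8_1 y z (by omega) (by omega) hz hk

theorem keys9 (y z : ℕ) (hz : z < y) (hy : y < 9) (hk : 4 * 9 + y + z ≤ 153) :
    KeyOK 9 y z := by
  exact cover_ok rhos_ok srcs_ok exs_ok (by omega) cv9_1 y z (by omega) (by omega) hz hk

theorem keys10 (y z : ℕ) (hz : z < y) (hy : y < 10) (hk : 4 * 10 + y + z ≤ 153) :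
    KeyOK 10 y z := by
  exact cover_ok rhos_ok srcs_ok exs_ok (by omega) cv10_1 y z (by omega) (by omega) hz hk

theorem keys11 (y z : ℕ) (hz : z < y) (hy : y < 11) (hk : 4 * 11 + y + z ≤ 153) :
    KeyOK 11 y z := by
  exact cover_ok rhos_ok srcs_ok exs_ok (by omega) cv11_1 y z (by omega) (by omega) hz hk

theorem keys12 (y z : ℕ) (hz : z < y) (hy : y < 12) (hk : 4 * 12 + y + z ≤ 153) :
    KeyOK 12 y z := by
  exact cover_ok rhos_ok srcs_ok exs_ok (by omega) cv12_1 y z (by omega) (by omega) hz hk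

theorem keys13 (y z : ℕ) (hz : z < y) (hy : y < 13) (hk : 4 * 13 + y + z ≤ 153) :
    KeyOK 13 y z := by
  exact cover_ok rhos_ok srcs_ok exs_ok (by omega) cv13_1 y z (by omega) (by omega) hz hk

theorem keys14 (y z : ℕ) (hz : z < y) (hy : y < 14) (hk : 4 * 14 + y + z ≤ 153) :
    KeyOK 14 y z := by
  exact cover_ok rhos_ok srcs_ok exs_ok (by omega) cv14_1 y z (by omega) (by omega) hz hk

theorem keys15 (y z : ℕ) (hz : z < y) (hy : y < 15) (hk : 4 * 15 + y + z ≤ 153) :
    KeyOK 15 y z := by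
  exact cover_ok rhos_ok srcs_ok exs_ok (by omega) cv15_1 y z (by omega) (by omega) hz hk

theorem keys16 (y z : ℕ) (hz : z < y) (hy : y < 16) (hk : 4 * 16 + y + z ≤ 153) :
    KeyOK 16 y z := by
  exact cover_ok rhos_ok srcs_ok exs_ok (by omega) cv16_1 y z (by omega) (by omega) hz hk

theorem keys17 (y z : ℕ) (hz : z < y) (hy : y < 17) (hk : 4 * 17 + y + z ≤ 153) :
    KeyOK 17 y z := by
  exact cover_ok rhos_ok srcs_ok exs_ok (by omega) cv17_1 y z (by omega) (by omega) hz hk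

theorem keys18 (y z : ℕ) (hz : z < y) (hy : y < 18) (hk : 4 * 18 + y + z ≤ 153) :
    KeyOK 18 y z := by
  exact cover_ok rhos_ok srcs_ok exs_ok (by omega) cv18_1 y z (by omega) (by omega) hz hk

theorem keys19 (y z : ℕ) (hz : z < y) (hy : y < 19) (hk : 4 * 19 + y + z ≤ 153) :
    KeyOK 19 y z := by
  exact cover_ok rhos_ok srcs_ok exs_ok (by omega) cv19_1 y z (by omega) (by omega) hz hk

theorem keys20 (y z : ℕ) (hz : z < y) (hy : y < 20) (hk : 4 * 20 + y + z ≤ 153) :
    KeyOK 20 y z := by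
  exact cover_ok rhos_ok srcs_ok exs_ok (by omega) cv20_1 y z (by omega) (by omega) hz hk

theorem keys21 (y z : ℕ) (hz : z < y) (hy : y < 21) (hk : 4 * 21 + y + z ≤ 153) :
    KeyOK 21 y z := by
  exact cover_ok rhos_ok srcs_ok exs_ok (by omega) cv21_1 y z (by omega) (by omega) hz hk

theorem keys22 (y z : ℕ) (hz : z < y) (hy : y < 22) (hk : 4 * 22 + y + z ≤ 153) :
    KeyOK 22 y z := by
  exact cover_ok rhos_ok srcs_ok exs_ok (by omega) cv22_1 y z (by omega) (by omega) hz hk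

theorem keys23 (y z : ℕ) (hz : z < y) (hy : y < 23) (hk : 4 * 23 + y + z ≤ 153) :
    KeyOK 23 y z := by
  exact cover_ok rhos_ok srcs_ok exs_ok (by omega) cv23_1 y z (by omega) (by omega) hz hk

theorem keys24 (y z : ℕ) (hz : z < y) (hy : y < 24) (hk : 4 * 24 + y + z ≤ 153) :
    KeyOK 24 y z := by
  exact cover_ok rhos_ok srcs_ok exs_ok (by omega) cv24_1 y z (by omega) (by omega) hz hk

theorem keys25 (y z : ℕ) (hz : z < y) (hy : y < 25) (hk : 4 * 25 + y + z ≤ 153) :
    KeyOK 25 y z := by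
  exact cover_ok rhos_ok srcs_ok exs_ok (by omega) cv25_1 y z (by omega) (by omega) hz hk

theorem keys26 (y z : ℕ) (hz : z < y) (hy : y < 26) (hk : 4 * 26 + y + z ≤ 153) :
    KeyOK 26 y z := by
  exact cover_ok rhos_ok srcs_ok exs_ok (by omega) cv26_1 y z (by omega) (by omega) hz hk

theorem keys27 (y z : ℕ) (hz : z < y) (hy : y < 27) (hk : 4 * 27 + y + z ≤ 153) :
    KeyOK 27 y z := by
  exact cover_ok rhos_ok srcs_ok exs_ok (by omega) cv27_1 y z (by omega) (by omega) hz hk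

theorem keys28 (y z : ℕ) (hz : z < y) (hy : y < 28) (hk : 4 * 28 + y + z ≤ 153) :
    KeyOK 28 y z := by
  exact cover_ok rhos_ok srcs_ok exs_ok (by omega) cv28_1 y z (by omega) (by omega) hz hk

theorem keys29 (y z : ℕ) (hz : z < y) (hy : y < 29) (hk : 4 * 29 + y + z ≤ 153) :
    KeyOK 29 y z := by
  exact cover_ok rhos_ok srcs_ok exs_ok (by omega) cv29_1 y z (by omega) (by omega) hz hk

theorem keys30 (y z : ℕ) (hz : z < y) (hy : y < 30) (hk : 4 * 30 + y + z ≤ 153) :
    KeyOK 30 y z := by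
  exact cover_ok rhos_ok srcs_ok exs_ok (by omega) cv30_1 y z (by omega) (by omega) hz hk

theorem keys31 (y z : ℕ) (hz : z < y) (hy : y < 31) (hk : 4 * 31 + y + z ≤ 153) :
    KeyOK 31 y z := by
  exact cover_ok rhos_ok srcs_ok exs_ok (by omega) cv31_1 y z (by omega) (by omega) hz hk

theorem keys32 (y z : ℕ) (hz : z < y) (hy : y < 32) (hk : 4 * 32 + y + z ≤ 153) :
    KeyOK 32 y z := by
  exact cover_ok rhos_ok srcs_ok exs_ok (by omega) cv32_1 y z (by omega) (by omega) hz hk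

theorem keys33 (y z : ℕ) (hz : z < y) (hy : y < 33) (hk : 4 * 33 + y + z ≤ 153) :
    KeyOK 33 y z := by
  exact cover_ok rhos_ok srcs_ok exs_ok (by omega) cv33_1 y z (by omega) (by omega) hz hk

theorem keys34 (y z : ℕ) (hz : z < y) (hy : y < 34) (hk : 4 * 34 + y + z ≤ 153) :
    KeyOK 34 y z := by
  exact cover_ok rhos_ok srcs_ok exs_ok (by omega) cv34_1 y z (by omega) (by omega) hz hk

theorem keys35 (y z : ℕ) (hz : z < y) (hy : y < 35) (hk : 4 * 35 + y + z ≤ 153) :
    KeyOK 35 y z := by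
  exact cover_ok rhos_ok srcs_ok exs_ok (by omega) cv35_1 y z (by omega) (by omega) hz hk

theorem keys36 (y z : ℕ) (hz : z < y) (hy : y < 36) (hk : 4 * 36 + y + z ≤ 153) :
    KeyOK 36 y z := by
  exact cover_ok rhos_ok srcs_ok exs_ok (by omega) cv36_1 y z (by omega) (by omega) hz hk

theorem keys37 (y z : ℕ) (hz : z < y) (hy : y < 37) (hk : 4 * 37 + y + z ≤ 153) :
    KeyOK 37 y z := by
  exact cover_ok rhos_ok srcs_ok exs_ok (by omega) cv37_1 y z (by omega) (by omega) hz hk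

theorem keys38 (y z : ℕ) (hz : z < y) (hy : y < 38) (hk : 4 * 38 + y + z ≤ 153) :
    KeyOK 38 y z := by
  exact cover_ok rhos_ok srcs_ok exs_ok (by omega) cv38_1 y z (by omega) (by omega) hz hk

theorem keys_all (x y z : ℕ) (hz : z < y) (hy : y < x) (hk : 4 * x + y + z ≤ 153) :
    KeyOK x y z := by
  have h1 : 2 ≤ x := by omega
  have h2 : x ≤ 38 := by omega
  interval_cases x
  · exact keys2 y z hz hy hk
  · exact keys3 y z hz hy hk
  · exact keys4 y z hz hy hk
  · exact keys5 y z hz hy hk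
  · exact keys6 y z hz hy hk
  · exact keys7 y z hz hy hk
  · exact keys8 y z hz hy hk
  · exact keys9 y z hz hy hk
  · exact keys10 y z hz hy hk
  · exact keys11 y z hz hy hk
  · exact keys12 y z hz hy hk
  · exact keys13 y z hz hy hk
  · exact keys14 y z hz hy hk
  · exact keys15 y z hz hy hk
  · exact keys16 y z hz hy hk
  · exact keys17 y z hz hy hk
  · exact keys18 y z hz hy hk
  · exact keys19 y z hz hy hk
  · exact keys20 y z hz hy hk
  · exact keys21 y z hz hy hk
  · exact keys22 y z hz hy hk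
  · exact keys23 y z hz hy hk
  · exact keys24 y z hz hy hk
  · exact keys25 y z hz hy hk
  · exact keys26 y z hz hy hk
  · exact keys27 y z hz hy hk
  · exact keys28 y z hz hy hk
  · exact keys29 y z hz hy hk
  · exact keys30 y z hz hy hk
  · exact keys31 y z hz hy hk
  · exact keys32 y z hz hy hk
  · exact keys33 y z hz hy hk
  · exact keys34 y z hz hy hk
  · exact keys35 y z hz hy hk
  · exact keys36 y z hz hy hk
  · exact keys37 y z hz hy hk
  · exact keys38 y z hz hy hk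

theorem mult_six_le {b : ℕ} (h7 : 7 ≤ b) (h24 : b ≤ 24) (l : Wt) (hl : Antitone l)
    (hn : ∑ i, l i = 6 * b) : mult 6 b l ≤ mult b 6 l :=
  final_of_keys keys_all h7 h24 l hl hn

end Vale.Agent.P181.K
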